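import Mathlib

/-!
Integer points of a box on a hyperplane, and sums of inverse powers of the sup norm over a box.
-/

namespace Vale.Agent.P054

open Finset

/-- The integer box `[-T, T]^m`. -/
noncomputable def box (m T : ℕ) : Finset (Fin m → ℤ) :=
  Fintype.piFinset fun _ => Finset.Icc (-(T : ℤ)) T

theorem mem_box {m T : ℕ} {v : Fin m → ℤ} : v ∈ box m T ↔ ∀ i, |v i| ≤ (T : ℤ) := by
  simp [box, abs_le]

theorem card_box (m T : ℕ) : (box m T).card = (2 * T + 1) ^ m := by
  simp only [box, Fintype.card_piFinset, Int.card_Icc, prod_const, card_univ, Fintype.card_fin]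
  congr 1
  omega

/-- An integer set in `[-T, T]` with all differences divisible by `q` is small. -/
theorem card_congr_class {T q : ℕ} (hq : 0 < q) (s : Finset ℤ)
    (hs : ∀ x ∈ s, |x| ≤ (T : ℤ)) (hd : ∀ x ∈ s, ∀ y ∈ s, (q : ℤ) ∣ x - y) :
    (s.card : ℝ) ≤ (2 * T + 1 : ℝ) / q + 1 := by
  have hcard : s.card ≤ 2 * T / q + 1 := by
    have hmap : ∀ x ∈ s, ((x + T).toNat / q) ∈ range (2 * T / q + 1) := by
      intro x hx
      refine mem_range.2 (Nat.lt_succ_of_le (Nat.div_le_div_right ?_))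
      have := abs_le.1 (hs x hx)
      omega
    have hinj : Set.InjOn (fun x : ℤ => (x + T).toNat / q) s := by
      intro x hx y hy hxy
      simp only at hxy
      obtain ⟨k, hk⟩ := hd x hx y hy
      have hx' := abs_le.1 (hs x hx)
      have hy' := abs_le.1 (hs y hy)
      have h1 := Nat.div_add_mod (x + T).toNat q
      have h2 := Nat.div_add_mod (y + T).toNat q
      have h3 := Nat.mod_lt (x + T).toNat hq
      have h4 := Nat.mod_lt (y + T).toNat hq
      rw [hxy] at h1
      have h5 : |x - y| < (q : ℤ) := by rw [abs_lt]; constructor <;> omega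
      rw [hk] at h5
      rcases eq_or_ne k 0 with rfl | hk0
      · simpa [sub_eq_zero] using hk
      · rw [abs_mul, abs_of_nonneg (by positivity : (0 : ℤ) ≤ (q : ℤ))] at h5
        nlinarith [Int.one_le_abs hk0]
    simpa using card_le_card_of_injOn _ hmap hinj
  calc (s.card : ℝ) ≤ ((2 * T / q + 1 : ℕ) : ℝ) := by exact_mod_cast hcard
    _ ≤ _ := by
      push_cast
      have h : ((2 * T / q : ℕ) : ℝ) ≤ ((2 * T : ℕ) : ℝ) / q := Nat.cast_div_le
      push_cast at h
      have h2 : (2 * T : ℝ) / q ≤ (2 * T + 1) / q := by gcongr; linarith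
      linarith

/-- The gcd of `H` and all coordinates. -/
def gcdW (H : ℕ) {m : ℕ} (z : Fin m → ℤ) : ℕ := Nat.gcd H (univ.gcd fun i => (z i).natAbs)

theorem gcdW_dvd {H m : ℕ} (z : Fin m → ℤ) (i : Fin m) : (gcdW H z : ℤ) ∣ z i :=
  Int.natCast_dvd.2 ((Nat.gcd_dvd_right _ _).trans (Finset.gcd_dvd (mem_univ i)))

theorem dvd_gcdW {H m : ℕ} (z : Fin m → ℤ) {g : ℕ} (hH : g ∣ H)
    (hz : ∀ i, (g : ℤ) ∣ z i) : g ∣ gcdW H z :=
  Nat.dvd_gcd hH (Finset.dvd_gcd fun i _ => Int.natCast_dvd.1 (hz i))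

/-- Points of a box in one congruence class of a linear form. -/
theorem card_congr_form (T : ℕ) : ∀ (m : ℕ) (H : ℕ), 0 < H → ∀ (r : ℤ) (z : Fin m → ℤ),
    (((box m T).filter fun b => (H : ℤ) ∣ r + ∑ i, z i * b i).card : ℝ) ≤
      (2 * T + 1 : ℝ) ^ m * gcdW H z / H + (3 ^ m - 1) * (2 * T + 1 : ℝ) ^ (m - 1) := by
  intro m
  induction m with
  | zero =>
    intro H hH r z
    have h : (((box 0 T).filter fun b => (H : ℤ) ∣ r + ∑ i, z i * b i).card : ℝ) ≤ 1 := by
      exact_mod_cast (card_filter_le _ _).trans (by simp [card_box])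
    refine h.trans (le_of_eq ?_)
    have : gcdW H z = H := by simp [gcdW]
    rw [this]
    field_simp
    ring
  | succ m ih =>
    intro H hH r z
    set z' : Fin m → ℤ := fun i => z i.succ with hz'
    set g' := gcdW H z' with hg'
    set g := gcdW H z with hg
    have hg'0 : 0 < g' := Nat.gcd_pos_of_pos_left _ hH
    have hgg' : g ∣ g' := dvd_gcdW z' (Nat.gcd_dvd_left _ _) fun i => gcdW_dvd z i.succ
    obtain ⟨q, hq⟩ := hgg'
    have hq0 : 0 < q := Nat.pos_of_ne_zero fun h => by simp [h] at hq; omega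
    set F := (box (m + 1) T).filter fun b => (H : ℤ) ∣ r + ∑ i, z i * b i with hF
    set X := F.image fun b => b 0 with hX
    have hsplit : ∀ b ∈ F, (g' : ℤ) ∣ r + z 0 * b 0 := by
      intro b hb
      have hb' := (mem_filter.1 hb).2
      rw [Fin.sum_univ_succ, ← add_assoc] at hb'
      have h1 : (g' : ℤ) ∣ ∑ i : Fin m, z i.succ * b i.succ :=
        dvd_sum fun i _ => (gcdW_dvd z' i).mul_right _
      have h2 : (g' : ℤ) ∣ r + z 0 * b 0 + ∑ i : Fin m, z i.succ * b i.succ :=
        (Int.natCast_dvd_natCast.2 (Nat.gcd_dvd_left H _)).trans hb'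
      exact (dvd_add_left h1).1 h2
    have hXcard : (X.card : ℝ) ≤ (2 * T + 1 : ℝ) / q + 1 := by
      refine card_congr_class hq0 X ?_ ?_
      · intro x hx
        obtain ⟨b, hb, rfl⟩ := mem_image.1 hx
        exact mem_box.1 (mem_filter.1 hb).1 0
      · intro x hx y hy
        obtain ⟨b, hb, rfl⟩ := mem_image.1 hx
        obtain ⟨c, hc, rfl⟩ := mem_image.1 hy
        have h1 : (g' : ℤ) ∣ z 0 * (b 0 - c 0) := by
          have h := dvd_sub (hsplit b hb) (hsplit c hc)
          rwa [show r + z 0 * b 0 - (r + z 0 * c 0) = z 0 * (b 0 - c 0) by ring] at h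
        have h2 : (g' : ℕ) ∣ (z 0).natAbs * (b 0 - c 0).natAbs := by
          rw [← Int.natAbs_mul]; exact Int.natCast_dvd.1 h1
        have h3 : g = Nat.gcd g' (z 0).natAbs := by
          refine Nat.dvd_antisymm (Nat.dvd_gcd ⟨q, hq⟩ (Int.natCast_dvd.1 (gcdW_dvd z 0))) ?_
          refine dvd_gcdW z ((Nat.gcd_dvd_left _ _).trans (Nat.gcd_dvd_left _ _)) fun i => ?_
          refine Fin.cases ?_ (fun j => ?_) i
          · exact Int.natCast_dvd.2 (Nat.gcd_dvd_right _ _)
          · exact (Int.natCast_dvd_natCast.2 (Nat.gcd_dvd_left _ _)).trans (gcdW_dvd z' j)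
        have hg0 : 0 < g := Nat.gcd_pos_of_pos_left _ hH
        obtain ⟨y', hy'⟩ : g ∣ (z 0).natAbs := Int.natCast_dvd.1 (gcdW_dvd z 0)
        rw [hq, hy', mul_assoc] at h2
        have hcop : Nat.Coprime q y' := by
          rw [hq, hy', Nat.gcd_mul_left] at h3
          exact Nat.eq_of_mul_eq_mul_left hg0 (h3.symm.trans (mul_one g).symm)
        exact Int.natCast_dvd.2 (hcop.dvd_of_dvd_mul_left (Nat.dvd_of_mul_dvd_mul_left hg0 h2))
    have hfib : ∀ x ∈ X, ((F.filter fun b => b 0 = x).card : ℝ) ≤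
        (2 * T + 1 : ℝ) ^ m * g' / H + (3 ^ m - 1) * (2 * T + 1 : ℝ) ^ (m - 1) := by
      intro x _
      refine le_trans ?_ (ih H hH (r + z 0 * x) z')
      have hc : (F.filter fun b => b 0 = x).card ≤
          ((box m T).filter fun b => (H : ℤ) ∣ (r + z 0 * x) + ∑ i, z' i * b i).card := by
        refine card_le_card_of_injOn Fin.tail ?_ ?_
        · intro b hb
          obtain ⟨hbF, rfl⟩ := mem_filter.1 hb
          obtain ⟨hbox, hdiv⟩ := mem_filter.1 hbF
          refine mem_filter.2 ⟨mem_box.2 fun i => mem_box.1 hbox i.succ, ?_⟩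
          rw [Fin.sum_univ_succ, ← add_assoc] at hdiv
          exact hdiv
        · intro b hb c hc hbc
          rw [← Fin.cons_self_tail b, ← Fin.cons_self_tail c, hbc,
            (mem_filter.1 hb).2, (mem_filter.1 hc).2]
      exact_mod_cast hc
    have htot : (F.card : ℝ) ≤ ((2 * T + 1 : ℝ) / q + 1) *
        ((2 * T + 1 : ℝ) ^ m * g' / H + (3 ^ m - 1) * (2 * T + 1 : ℝ) ^ (m - 1)) := by
      rw [show (F.card : ℝ) = ∑ x ∈ X, ((F.filter fun b => b 0 = x).card : ℝ) by
        exact_mod_cast card_eq_sum_card_image (fun b => b 0) F]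
      refine (sum_le_card_nsmul _ _ _ hfib).trans ?_
      rw [nsmul_eq_mul]
      refine mul_le_mul_of_nonneg_right hXcard (add_nonneg (by positivity) (mul_nonneg ?_ (by positivity)))
      exact sub_nonneg.2 (one_le_pow₀ (by norm_num))
    refine htot.trans ?_
    set A := (2 * T + 1 : ℝ) with hA
    have hA1 : (1 : ℝ) ≤ A := by
      rw [hA]
      have : (0 : ℝ) ≤ T := Nat.cast_nonneg T
      linarith
    have hqR : (g' : ℝ) = g * q := by exact_mod_cast hq
    have hgH : (g' : ℝ) / H ≤ 1 := by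
      rw [div_le_one (by exact_mod_cast hH)]
      exact_mod_cast Nat.le_of_dvd hH (Nat.gcd_dvd_left _ _)
    have e1 : A / q * (A ^ m * g' / H) = A ^ (m + 1) * g / H := by
      rw [hqR, pow_succ]; field_simp
    have e2 : A ^ m * g' / H ≤ A ^ m := by
      rw [mul_div_assoc]; exact mul_le_of_le_one_right (by positivity) hgH
    have h3 : (1 : ℝ) ≤ 3 ^ m := one_le_pow₀ (by norm_num)
    have e3 : (3 ^ m - 1) * ((A / q + 1) * A ^ (m - 1)) ≤ (3 ^ m - 1) * (2 * A ^ m) := by
      rcases m with _ | k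
      · simp
      · refine mul_le_mul_of_nonneg_left ?_ (by linarith)
        have hq1 : A / q ≤ A := div_le_self (by linarith) (by exact_mod_cast hq0)
        simp only [Nat.succ_sub_one, pow_succ]
        nlinarith [pow_nonneg (show (0 : ℝ) ≤ A by linarith) k]
    have hAm : (0 : ℝ) ≤ A ^ m := by positivity
    calc (A / q + 1) * (A ^ m * g' / H + (3 ^ m - 1) * A ^ (m - 1))
        = A / q * (A ^ m * g' / H) + A ^ m * g' / H +
          (3 ^ m - 1) * ((A / q + 1) * A ^ (m - 1)) := by ring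
      _ ≤ A ^ (m + 1) * g / H + A ^ m + (3 ^ m - 1) * (2 * A ^ m) := by linarith
      _ ≤ A ^ (m + 1) * g / H + (3 ^ (m + 1) - 1) * A ^ (m + 1 - 1) := by
          rw [Nat.add_sub_cancel, pow_succ (3 : ℝ)]
          nlinarith [mul_le_mul_of_nonneg_right h3 hAm]

/-- The sup norm as a natural number. -/
def nm {m : ℕ} (v : Fin m → ℤ) : ℕ := univ.sup fun i => (v i).natAbs

theorem le_nm {m : ℕ} (v : Fin m → ℤ) (i : Fin m) : (v i).natAbs ≤ nm v :=
  Finset.le_sup (f := fun i => (v i).natAbs) (mem_univ i)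

theorem mem_box_iff_nm {m T : ℕ} {v : Fin m → ℤ} : v ∈ box m T ↔ nm v ≤ T := by
  rw [mem_box, nm, Finset.sup_le_iff]
  constructor
  · intro h i _
    have := abs_le.1 (h i)
    omega
  · intro h i
    have := h i (mem_univ i)
    rw [abs_le]
    omega

theorem nm_eq_zero {m : ℕ} {v : Fin m → ℤ} : nm v = 0 ↔ v = 0 := by
  constructor
  · intro h
    funext i
    have := le_nm v i
    simpa [h] using this
  · rintro rfl
    simp [nm]

/-- Points of a box on a hyperplane with primitive integer normal `z`. -/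
theorem card_hyperplane (n T : ℕ) (z : Fin (n + 1) → ℤ) (hz : z ≠ 0)
    (hprim : (univ.gcd fun i => (z i).natAbs) = 1) :
    (((box (n + 1) T).filter fun b => ∑ i, z i * b i = 0).card : ℝ) ≤
      (2 * T + 1 : ℝ) ^ n / nm z + 3 ^ n * (2 * T + 1 : ℝ) ^ (n - 1) := by
  obtain ⟨i, -, hi⟩ := Finset.exists_mem_eq_sup (univ : Finset (Fin (n + 1)))
    univ_nonempty (fun i => (z i).natAbs)
  have hH : (z i).natAbs = nm z := hi.symm
  have hpos : 0 < nm z := Nat.pos_of_ne_zero fun h => hz (nm_eq_zero.1 h)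
  set z' : Fin n → ℤ := fun j => z (i.succAbove j) with hz'
  have hg : gcdW (nm z) z' = 1 := by
    refine Nat.dvd_one.1 ((?_ : gcdW (nm z) z' ∣ univ.gcd fun i => (z i).natAbs).trans hprim.dvd)
    refine Finset.dvd_gcd fun j _ => ?_
    rcases eq_or_ne j i with rfl | hj
    · rw [hH]; exact Nat.gcd_dvd_left _ _
    · obtain ⟨k, rfl⟩ := Fin.exists_succAbove_eq hj
      exact Int.natCast_dvd.1 (gcdW_dvd z' k)
  have h := card_congr_form T n (nm z) hpos 0 z'
  rw [hg, Nat.cast_one, mul_one] at h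
  have hcard : ((box (n + 1) T).filter fun b => ∑ i, z i * b i = 0).card ≤
      ((box n T).filter fun b => (nm z : ℤ) ∣ 0 + ∑ j, z' j * b j).card := by
    refine card_le_card_of_injOn (fun b => fun j => b (i.succAbove j)) ?_ ?_
    · intro b hb
      obtain ⟨hbox, hsum⟩ := mem_filter.1 hb
      refine mem_filter.2 ⟨mem_box.2 fun j => mem_box.1 hbox _, ?_⟩
      rw [Fin.sum_univ_succAbove _ i, add_comm] at hsum
      rw [zero_add, eq_neg_of_add_eq_zero_left hsum, dvd_neg]
      exact Dvd.dvd.mul_right (Int.natCast_dvd.2 (by rw [hH])) _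
    · intro b hb c hc hbc
      have hb' := (mem_filter.1 hb).2
      have hc' := (mem_filter.1 hc).2
      rw [Fin.sum_univ_succAbove _ i] at hb' hc'
      have hj : ∀ j, b (i.succAbove j) = c (i.succAbove j) := fun j => congrFun hbc j
      simp only [hj] at hb'
      have hzi : z i ≠ 0 := fun h0 => by simp [h0] at hH; omega
      have hbi : b i = c i := mul_left_cancel₀ hzi (by linarith)
      funext k
      rcases eq_or_ne k i with rfl | hk
      · exact hbi
      · obtain ⟨j, rfl⟩ := Fin.exists_succAbove_eq hk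
        exact hj j
  refine ((Nat.cast_le (α := ℝ)).2 hcard).trans (h.trans ?_)
  gcongr
  linarith

/-- Sums of inverse powers of the sup norm over a box. -/
theorem sum_inv_nm (n p T : ℕ) (hp : p ≤ n) :
    ∑ v ∈ (box (n + 1) T).filter (fun v => v ≠ 0), (1 : ℝ) / (nm v : ℝ) ^ p ≤
      2 * (n + 1) * 3 ^ n * (T : ℝ) ^ (n + 1 - p) := by
  induction T with
  | zero =>
    refine le_of_eq_of_le (Finset.sum_eq_zero fun v hv => ?_) (by positivity)
    obtain ⟨hv, hv0⟩ := mem_filter.1 hv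
    exact absurd (nm_eq_zero.1 (Nat.le_zero.1 (mem_box_iff_nm.1 hv))) hv0
  | succ T ih =>
    have hsub : box (n + 1) T ⊆ box (n + 1) (T + 1) := fun v hv =>
      mem_box_iff_nm.2 ((mem_box_iff_nm.1 hv).trans (Nat.le_succ T))
    set Sh := box (n + 1) (T + 1) \ box (n + 1) T with hSh
    have hsplit : (box (n + 1) (T + 1)).filter (fun v => v ≠ 0) =
        (box (n + 1) T).filter (fun v => v ≠ 0) ∪ Sh := by
      ext v
      simp only [hSh, mem_filter, mem_union, mem_sdiff]
      constructor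
      · rintro ⟨hv, hv0⟩
        by_cases hT : v ∈ box (n + 1) T
        · exact Or.inl ⟨hT, hv0⟩
        · exact Or.inr ⟨hv, hT⟩
      · rintro (⟨hv, hv0⟩ | ⟨hv, hT⟩)
        · exact ⟨hsub hv, hv0⟩
        · refine ⟨hv, fun h0 => hT ?_⟩
          subst h0
          exact mem_box_iff_nm.2 (by simp [nm])
    have hval : ∀ v ∈ Sh, (1 : ℝ) / (nm v : ℝ) ^ p = 1 / ((T : ℝ) + 1) ^ p := by
      intro v hv
      obtain ⟨h1, h2⟩ := mem_sdiff.1 hv
      rw [mem_box_iff_nm] at h1 h2
      rw [show nm v = T + 1 by omega]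
      push_cast
      rfl
    have hpow : ∀ (m : ℕ) (x : ℝ), 0 ≤ x →
        (x + 2) ^ (m + 1) - x ^ (m + 1) ≤ 2 * (m + 1) * (x + 2) ^ m := by
      intro m
      induction m with
      | zero => intro x _; simp
      | succ m ih =>
        intro x hx
        have h := mul_le_mul_of_nonneg_left (ih x hx) hx
        push_cast
        rw [pow_succ (x + 2) (m + 1), pow_succ x (m + 1), pow_succ (x + 2) m] at *
        nlinarith [pow_nonneg (show (0 : ℝ) ≤ x + 2 by linarith) m, h]
    have hcard : (Sh.card : ℝ) ≤ 2 * (n + 1) * 3 ^ n * ((T : ℝ) + 1) ^ n := by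
      rw [hSh, card_sdiff_of_subset hsub, Nat.cast_sub (card_le_card hsub), card_box, card_box]
      push_cast
      have hT : (0 : ℝ) ≤ T := Nat.cast_nonneg T
      calc (2 * ((T : ℝ) + 1) + 1) ^ (n + 1) - (2 * (T : ℝ) + 1) ^ (n + 1)
          = (2 * (T : ℝ) + 1 + 2) ^ (n + 1) - (2 * (T : ℝ) + 1) ^ (n + 1) := by ring
        _ ≤ 2 * (n + 1) * (2 * (T : ℝ) + 1 + 2) ^ n := hpow n _ (by linarith)
        _ ≤ 2 * (n + 1) * (3 * ((T : ℝ) + 1)) ^ n := by gcongr; linarith
        _ = _ := by rw [mul_pow]; ring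
    rw [hsplit, sum_union (disjoint_left.2 fun v hv hS => (mem_sdiff.1 hS).2 (mem_filter.1 hv).1),
      sum_congr rfl hval, sum_const, nsmul_eq_mul]
    obtain ⟨k, hk⟩ : ∃ k, n = p + k := ⟨n - p, by omega⟩
    have hT1 : (0 : ℝ) < (T : ℝ) + 1 := by positivity
    have hSh' : (Sh.card : ℝ) * (1 / ((T : ℝ) + 1) ^ p) ≤
        2 * (n + 1) * 3 ^ n * ((T : ℝ) + 1) ^ k := by
      rw [mul_one_div, div_le_iff₀ (by positivity)]
      refine hcard.trans (le_of_eq ?_)
      rw [mul_assoc _ (((T : ℝ) + 1) ^ k), ← pow_add, hk, add_comm k p]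
    have he : n + 1 - p = k + 1 := by omega
    rw [he] at ih ⊢
    push_cast
    have hkT : (T : ℝ) ^ k ≤ ((T : ℝ) + 1) ^ k := by gcongr; linarith
    have hC : (0 : ℝ) ≤ 2 * (n + 1) * 3 ^ n := by positivity
    rw [pow_succ (T : ℝ)] at ih
    rw [pow_succ ((T : ℝ) + 1)]
    nlinarith [mul_le_mul_of_nonneg_left (mul_le_mul_of_nonneg_right hkT (Nat.cast_nonneg (α := ℝ) T)) hC]

end Vale.Agent.P054
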