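import Vale.Agent.P054.Count

/-!
Pairs of integer points of a box that are orthogonal in an arbitrary positive form.
-/

namespace Vale.Agent.P054

open Finset
open scoped RealInnerProductSpace

variable {d : ℕ} (L : (Fin d → ℝ) →ₗ[ℝ] EuclideanSpace ℝ (Fin d))

/-- An integer vector as a real vector. -/
def rv (a : Fin d → ℤ) : Fin d → ℝ := fun i => (a i : ℝ)

/-- The form pulled back by `L`. -/
noncomputable def pair (a b : Fin d → ℤ) : ℝ := ⟪L (rv a), L (rv b)⟫

/-- The normal of the hyperplane orthogonal to `a`. -/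
noncomputable def normal (a : Fin d → ℤ) (i : Fin d) : ℝ := ⟪L (rv a), L (Pi.single i 1)⟫

theorem pair_eq_sum (a b : Fin d → ℤ) : pair L a b = ∑ i, (b i : ℝ) * normal L a i := by
  have h : rv b = ∑ i, (b i : ℝ) • (Pi.single i (1 : ℝ) : Fin d → ℝ) := by
    funext j
    simp [rv, Finset.sum_apply, Pi.single_apply]
  rw [pair, h, map_sum, inner_sum]
  exact Finset.sum_congr rfl fun i _ => by rw [map_smul, real_inner_smul_right]; rfl

theorem normal_inj (hL : Function.Injective L) {a a' : Fin d → ℤ} {c c' : ℝ}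
    (h : ∀ i, c * normal L a i = c' * normal L a' i) : ∀ i, c * a i = c' * a' i := by
  set u : Fin d → ℝ := c • rv a - c' • rv a' with hu
  have h0 : ∀ i, ⟪L u, L (Pi.single i 1)⟫ = 0 := by
    intro i
    rw [hu, map_sub, map_smul, map_smul, inner_sub_left, real_inner_smul_left,
      real_inner_smul_left]
    exact sub_eq_zero.2 (h i)
  have huu : ⟪L u, L u⟫ = 0 := by
    have hs : u = ∑ i, u i • (Pi.single i (1 : ℝ) : Fin d → ℝ) := by
      funext j
      simp [Finset.sum_apply, Pi.single_apply]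
    nth_rewrite 2 [hs]
    rw [map_sum, inner_sum]
    exact Finset.sum_eq_zero fun i _ => by rw [map_smul, real_inner_smul_right, h0, mul_zero]
  have hz : u = 0 := hL (by rw [inner_self_eq_zero.1 huu, map_zero])
  intro i
  have := congrFun hz i
  simpa [hu, rv, sub_eq_zero] using this

/-- The points of the box orthogonal to `a`. -/
noncomputable def perp (T : ℕ) (a : Fin d → ℤ) : Finset (Fin d → ℤ) :=
  (box d T).filter fun b => pair L a b = 0

/-- A primitive integer vector parallel to the normal. -/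
def RatNormal (a z : Fin d → ℤ) : Prop :=
  (univ.gcd fun i => (z i).natAbs) = 1 ∧ ∃ c : ℝ, c ≠ 0 ∧ ∀ i, normal L a i = c * z i

theorem exists_primitive {a : Fin d → ℤ} (ha : a ≠ 0) :
    ∃ (g : ℕ) (a₀ : Fin d → ℤ), 0 < g ∧ (univ.gcd fun i => (a₀ i).natAbs) = 1 ∧
      ∀ i, a i = (g : ℤ) * a₀ i := by
  obtain ⟨g, hg⟩ : ∃ g, g = univ.gcd fun i => (a i).natAbs := ⟨_, rfl⟩
  have hdvd : ∀ i, (g : ℤ) ∣ a i := fun i =>
    Int.natCast_dvd.2 (hg ▸ Finset.gcd_dvd (mem_univ i))
  choose a₀ ha₀ using hdvd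
  have hg0 : 0 < g := Nat.pos_of_ne_zero fun h => ha <| funext fun i => by
    simp [ha₀ i, h]
  refine ⟨g, a₀, hg0, ?_, ha₀⟩
  have h : (univ.gcd fun i => g * (a₀ i).natAbs) = g := by
    conv_rhs => rw [hg]
    exact Finset.gcd_congr rfl fun i _ => by rw [ha₀ i, Int.natAbs_mul, Int.natAbs_natCast]
  rw [Finset.gcd_mul_left, normalize_eq] at h
  exact Nat.eq_of_mul_eq_mul_left hg0 (h.trans (mul_one g).symm)

theorem primitive_parallel {a a' : Fin d → ℤ} (ha : (univ.gcd fun i => (a i).natAbs) = 1)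
    (ha' : (univ.gcd fun i => (a' i).natAbs) = 1) {lam : ℝ}
    (h : ∀ i, (a' i : ℝ) = lam * a i) : a' = a ∨ a' = -a := by
  have hne : a ≠ 0 := by
    rintro rfl
    simp [Finset.gcd_eq_zero_iff.2] at ha
  obtain ⟨i, hi⟩ := Function.ne_iff.1 hne
  have hk : ∀ k, a i * a' k = a' i * a k := by
    intro k
    have : (a i : ℝ) * a' k = a' i * a k := by rw [h k, h i]; ring
    exact_mod_cast this
  have hnat : (a i).natAbs = (a' i).natAbs := by
    have h1 : (univ.gcd fun k => (a i).natAbs * (a' k).natAbs) =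
        univ.gcd fun k => (a' i).natAbs * (a k).natAbs :=
      Finset.gcd_congr rfl fun k _ => by rw [← Int.natAbs_mul, hk k, Int.natAbs_mul]
    rw [Finset.gcd_mul_left, Finset.gcd_mul_left, normalize_eq, normalize_eq, ha, ha',
      mul_one, mul_one] at h1
    exact h1
  have hi0 : (a i : ℝ) ≠ 0 := by simpa using hi
  rcases Int.natAbs_eq_natAbs_iff.1 hnat with he | he
  · refine Or.inl (funext fun k => ?_)
    have hl : lam = 1 := by
      have := h i
      rw [← he] at this
      exact mul_right_cancel₀ hi0 (by linarith)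
    have := h k
    rw [hl, one_mul] at this
    exact_mod_cast this
  · refine Or.inr (funext fun k => ?_)
    have hl : lam = -1 := by
      have := h i
      rw [he] at this hi0
      push_cast at this hi0
      exact mul_right_cancel₀ hi0 (by linarith)
    have := h k
    rw [hl, neg_one_mul] at this
    rw [Pi.neg_apply]
    exact_mod_cast this

/-- Without a rational normal two coordinates are determined by the others. -/
theorem card_perp_irr (hL : Function.Injective L) {T : ℕ} {a : Fin d → ℤ} (ha : a ≠ 0)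
    (h : ¬ ∃ z, RatNormal L a z) :
    ((perp L T a).card : ℝ) ≤ (2 * T + 1 : ℝ) ^ (d - 2) := by
  classical
  obtain ⟨i, hi⟩ : ∃ i, normal L a i ≠ 0 := by
    by_contra hc
    push Not at hc
    refine ha (funext fun i => ?_)
    have := normal_inj L hL (a := a) (a' := a) (c := 1) (c' := 0)
      (fun j => by simp [hc j]) i
    simpa using this
  obtain ⟨j, hj⟩ : ∃ j, ∀ q : ℚ, normal L a j ≠ (q : ℝ) * normal L a i := by
    by_contra hc
    push Not at hc
    choose r hr using hc
    set D : ℕ := ∏ k, (r k).den with hD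
    have hD0 : 0 < D := Finset.prod_pos fun k _ => (r k).den_pos
    have hz : ∀ k, ∃ z : ℤ, (z : ℝ) = (D : ℝ) * (r k : ℝ) := by
      intro k
      obtain ⟨m, hm⟩ : (r k).den ∣ D := Finset.dvd_prod_of_mem _ (mem_univ k)
      refine ⟨(m : ℤ) * (r k).num, ?_⟩
      rw [hm]
      push_cast [Rat.cast_def]
      field_simp
    choose z hz using hz
    have hz0 : z ≠ 0 := by
      intro h0
      have hzi := hz i
      have hri : (r i : ℝ) = 1 := mul_right_cancel₀ hi (by rw [one_mul]; exact (hr i).symm)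
      rw [hri, h0] at hzi
      have : (0 : ℝ) < D := by exact_mod_cast hD0
      simp only [Pi.zero_apply, Int.cast_zero, mul_one] at hzi
      linarith
    obtain ⟨g, z₀, hg, hprim, hz₀⟩ := exists_primitive hz0
    refine h ⟨z₀, hprim, normal L a i * g / D, ?_, fun k => ?_⟩
    · positivity
    · have e : (z k : ℝ) = (g : ℝ) * z₀ k := by exact_mod_cast hz₀ k
      rw [hr k]
      field_simp
      linear_combination e - hz k
  have hij : i ≠ j := fun e => hj 1 (by rw [e]; simp)
  let Pset : Fin d → Finset ℤ := fun k => if k = i ∨ k = j then {0} else Icc (-(T : ℤ)) T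
  have hcard : (perp L T a).card ≤ (Fintype.piFinset Pset).card := by
    refine card_le_card_of_injOn (fun b k => if k = i ∨ k = j then 0 else b k) ?_ ?_
    · intro b hb
      refine Fintype.mem_piFinset.2 fun k => ?_
      simp only [Pset]
      split
      · simp
      · exact mem_Icc.2 (abs_le.1 (mem_box.1 (mem_filter.1 hb).1 k))
    · intro b hb c hc hbc
      have hk : ∀ k, k ≠ i → k ≠ j → b k = c k := fun k h1 h2 => by
        simpa [h1, h2] using congrFun hbc k
      have hb' := (mem_filter.1 hb).2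
      have hc' := (mem_filter.1 hc).2
      rw [pair_eq_sum] at hb' hc'
      have hsub : ∑ k, ((b k : ℝ) - c k) * normal L a k = 0 := by
        simp only [sub_mul, Finset.sum_sub_distrib, hb', hc', sub_zero]
      rw [Finset.sum_eq_add i j hij (fun k _ hk' => by rw [hk k hk'.1 hk'.2]; simp)
        (by simp) (by simp)] at hsub
      have hbj : b j = c j := by
        by_contra hne
        refine hj (-((b i - c i : ℤ) : ℚ) / ((b j - c j : ℤ) : ℚ)) ?_
        have hne' : (b j : ℝ) - c j ≠ 0 := sub_ne_zero.2 (by exact_mod_cast hne)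
        push_cast
        field_simp
        linarith
      have hbi : b i = c i := by
        rw [hbj, sub_self, zero_mul, add_zero, mul_eq_zero] at hsub
        rcases hsub with h0 | h0
        · exact_mod_cast sub_eq_zero.1 h0
        · exact absurd h0 hi
      funext k
      by_cases h1 : k = i
      · rw [h1]; exact hbi
      by_cases h2 : k = j
      · rw [h2]; exact hbj
      exact hk k h1 h2
  have hpi : (Fintype.piFinset Pset).card = (2 * T + 1) ^ (d - 2) := by
    rw [Fintype.card_piFinset]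
    have e : ∀ k, (Pset k).card = if k = i ∨ k = j then 1 else 2 * T + 1 := by
      intro k
      simp only [Pset]
      split
      · simp
      · simp only [Int.card_Icc]; omega
    simp only [e, Finset.prod_ite, prod_const_one, one_mul, prod_const]
    congr 1
    have : (univ.filter fun k => ¬(k = i ∨ k = j)) = univ \ {i, j} := by ext; simp
    rw [this, card_sdiff_of_subset (subset_univ _), card_pair hij, card_univ, Fintype.card_fin]
  exact_mod_cast hcard.trans_eq hpi

/-- The primitive vector on the ray of `a`. -/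
noncomputable def prim (a : Fin d → ℤ) : Fin d → ℤ :=
  fun i => a i / ((univ.gcd fun k => (a k).natAbs : ℕ) : ℤ)

theorem prim_spec {a : Fin d → ℤ} (ha : a ≠ 0) :
    0 < (univ.gcd fun k => (a k).natAbs) ∧
      (univ.gcd fun i => (prim a i).natAbs) = 1 ∧
      ∀ i, a i = ((univ.gcd fun k => (a k).natAbs : ℕ) : ℤ) * prim a i := by
  obtain ⟨g, a₀, hg, h1, h2⟩ := exists_primitive ha
  have hgcd : (univ.gcd fun k => (a k).natAbs) = g := by
    rw [Finset.gcd_congr rfl fun k _ =>
        (by rw [h2 k, Int.natAbs_mul, Int.natAbs_natCast] :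
          (a k).natAbs = g * (a₀ k).natAbs),
      Finset.gcd_mul_left, normalize_eq, h1, mul_one]
  have hp : prim a = a₀ := funext fun i => by
    rw [prim, hgcd, h2 i, Int.mul_ediv_cancel_left _ (by omega)]
  rw [hgcd, hp]
  exact ⟨hg, h1, h2⟩

theorem perp_prim (T : ℕ) {a : Fin d → ℤ} (ha : a ≠ 0) : perp L T a = perp L T (prim a) := by
  obtain ⟨hg, -, hmul⟩ := prim_spec ha
  set g := univ.gcd fun k => (a k).natAbs
  have h : rv a = (g : ℝ) • rv (prim a) := by
    funext i
    simp only [rv, Pi.smul_apply, smul_eq_mul]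
    exact_mod_cast hmul i
  refine Finset.filter_congr fun b _ => ?_
  have hg' : (g : ℝ) ≠ 0 := by exact_mod_cast hg.ne'
  simp [pair, h, real_inner_smul_left, hg']

/-- The number of orthogonal pairs is of the order of the whole box to the power `(2d-2)/d`. -/
theorem sum_perp_le (n : ℕ) (hn : 2 ≤ n) (L : (Fin (n + 1) → ℝ) →ₗ[ℝ]
    EuclideanSpace ℝ (Fin (n + 1))) (hL : Function.Injective L) {T : ℕ} (hT : 1 ≤ T) :
    ∑ a ∈ (box (n + 1) T).filter (fun a => a ≠ 0), ((perp L T a).card : ℝ) ≤
      6 * (2 * (n + 1) * 3 ^ n) * (3 ^ n * 3 ^ n) * (T : ℝ) ^ (2 * n) := by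
  classical
  set B := (box (n + 1) T).filter (fun a => a ≠ 0) with hB
  have hBne : ∀ a ∈ B, a ≠ 0 := fun a ha => (mem_filter.1 ha).2
  set P := B.image prim with hP
  have hPprim : ∀ a₀ ∈ P, (univ.gcd fun i => (a₀ i).natAbs) = 1 ∧ a₀ ∈ B := by
    intro a₀ ha₀
    obtain ⟨a, ha, rfl⟩ := mem_image.1 ha₀
    obtain ⟨hg, h1, h2⟩ := prim_spec (hBne a ha)
    refine ⟨h1, mem_filter.2 ⟨mem_box.2 fun i => ?_, fun h0 => ?_⟩⟩
    · have := mem_box.1 (mem_filter.1 ha).1 i
      rw [h2 i, abs_mul, Nat.abs_cast] at this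
      exact (le_mul_of_one_le_left (abs_nonneg _) (by exact_mod_cast hg)).trans this
    · exact hBne a ha (funext fun i => by rw [h2 i, h0]; simp)
  have hnm : ∀ a₀ ∈ P, 0 < nm a₀ := fun a₀ h =>
    Nat.pos_of_ne_zero fun h0 => hBne _ (hPprim a₀ h).2 (nm_eq_zero.1 h0)
  have hT1 : (1 : ℝ) ≤ T := by exact_mod_cast hT
  -- group the multiples of each primitive vector
  have step1 : ∑ a ∈ B, ((perp L T a).card : ℝ) ≤
      ∑ a₀ ∈ P, (T : ℝ) / nm a₀ * ((perp L T a₀).card : ℝ) := by
    rw [← sum_fiberwise_of_maps_to (g := prim) (fun a ha => mem_image_of_mem prim ha)]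
    refine sum_le_sum fun a₀ ha₀ => ?_
    rw [sum_congr rfl fun a ha => by
      rw [perp_prim L T (hBne a (mem_filter.1 ha).1), (mem_filter.1 ha).2]]
    rw [sum_const, nsmul_eq_mul]
    refine mul_le_mul_of_nonneg_right ?_ (Nat.cast_nonneg _)
    have hc : (B.filter fun a => prim a = a₀).card ≤ T / nm a₀ := by
      refine (card_le_card_of_injOn (fun a => univ.gcd fun k => (a k).natAbs) (t := Icc 1 (T / nm a₀))
        ?_ ?_).trans (by simp)
      · intro a ha
        obtain ⟨haB, rfl⟩ := mem_filter.1 ha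
        obtain ⟨hg, -, h2⟩ := prim_spec (hBne a haB)
        refine mem_Icc.2 ⟨hg, (Nat.le_div_iff_mul_le (hnm _ ha₀)).2 ?_⟩
        obtain ⟨i, -, hi⟩ := Finset.exists_mem_eq_sup (univ : Finset (Fin (n + 1)))
          univ_nonempty (fun i => (prim a i).natAbs)
        have hle := (le_nm a i).trans (mem_box_iff_nm.1 (mem_filter.1 haB).1)
        rw [h2 i, Int.natAbs_mul, Int.natAbs_natCast] at hle
        rw [nm, hi]
        exact hle
      · intro a ha b hb hab
        obtain ⟨haB, hpa⟩ := mem_filter.1 ha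
        obtain ⟨hbB, hpb⟩ := mem_filter.1 hb
        funext i
        rw [(prim_spec (hBne a haB)).2.2 i, (prim_spec (hBne b hbB)).2.2 i, hpa, hpb]
        simp only at hab
        rw [hab]
    exact ((Nat.cast_le (α := ℝ)).2 hc).trans Nat.cast_div_le
  -- the normal key
  let key : (Fin (n + 1) → ℤ) → Option (Fin (n + 1) → ℤ) := fun a =>
    if h : ∃ z, RatNormal L a z then some h.choose else none
  let wz : (Fin (n + 1) → ℤ) → ℝ := fun a =>
    match key a with
    | some z => 1 / (nm z : ℝ)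
    | none => 0
  set A := (2 * T + 1 : ℝ) with hA
  have hA3 : A ≤ 3 * T := by rw [hA]; linarith
  have hA0 : 0 ≤ A := by rw [hA]; positivity
  have step2 : ∀ a₀ ∈ P, ((perp L T a₀).card : ℝ) ≤
      3 ^ n * A ^ (n - 1) + A ^ n * wz a₀ := by
    intro a₀ ha₀
    have hne := hBne _ (hPprim a₀ ha₀).2
    by_cases h : ∃ z, RatNormal L a₀ z
    · obtain ⟨hz1, c, hc, hz⟩ := h.choose_spec
      have hz0 : h.choose ≠ 0 := fun h0 => by
        rw [h0] at hz1; simp [Finset.gcd_eq_zero_iff.2] at hz1
      have e : perp L T a₀ = (box (n + 1) T).filter fun b => ∑ i, h.choose i * b i = 0 := by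
        refine Finset.filter_congr fun b _ => ?_
        rw [pair_eq_sum]
        have : ∑ i, (b i : ℝ) * normal L a₀ i = c * ((∑ i, h.choose i * b i : ℤ) : ℝ) := by
          push_cast
          rw [mul_sum]
          exact sum_congr rfl fun i _ => by rw [hz i]; ring
        rw [this, mul_eq_zero, Int.cast_eq_zero]
        simp [hc]
      have hk : wz a₀ = 1 / (nm h.choose : ℝ) := by simp only [wz, key, dif_pos h]
      rw [e, hk, mul_one_div]
      exact (card_hyperplane n T _ hz0 hz1).trans (le_of_eq (add_comm _ _))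
    · have hk : wz a₀ = 0 := by simp only [wz, key, dif_neg h]
      rw [hk, mul_zero, add_zero]
      refine (card_perp_irr L hL hne h).trans ?_
      rw [show n + 1 - 2 = n - 1 by omega]
      exact le_mul_of_one_le_left (pow_nonneg hA0 _) (one_le_pow₀ (by norm_num))
  set C := (2 * (n + 1) * 3 ^ n : ℝ) with hC
  have hC0 : 0 ≤ C := by rw [hC]; positivity
  have s1 : ∑ a₀ ∈ P, (1 : ℝ) / nm a₀ ≤ C * (T : ℝ) ^ n := by
    have h := sum_inv_nm n 1 T (by omega)
    simp only [pow_one] at h
    refine le_trans (sum_le_sum_of_subset_of_nonneg (fun a ha => (hPprim a ha).2)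
      fun v _ _ => by positivity) (h.trans (le_of_eq (by rw [Nat.add_sub_cancel])))
  have s2 : ∑ a₀ ∈ P, (1 : ℝ) / (nm a₀ : ℝ) ^ 2 ≤ C * (T : ℝ) ^ (n - 1) := by
    refine le_trans (sum_le_sum_of_subset_of_nonneg (fun a ha => (hPprim a ha).2)
      fun v _ _ => by positivity) ((sum_inv_nm n 2 T hn).trans (le_of_eq ?_))
    rw [show n + 1 - 2 = n - 1 by omega]
  set Q := P.filter fun a => ∃ z ∈ key a, nm z ≤ T with hQ
  have s3 : ∑ a₀ ∈ Q, wz a₀ ^ 2 ≤ 2 * (C * (T : ℝ) ^ (n - 1)) := by
    set Z := (box (n + 1) T).filter (fun v => v ≠ 0)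
    have hmaps : ∀ a ∈ Q, (key a).getD 0 ∈ Z := by
      intro a ha
      obtain ⟨z, hz, hzT⟩ := (mem_filter.1 ha).2
      rw [Option.mem_def] at hz
      simp only [hz, Option.getD_some]
      refine mem_filter.2 ⟨mem_box_iff_nm.2 hzT, fun h0 => ?_⟩
      have hh : ∃ z, RatNormal L a z := by
        by_contra hh; simp only [key, dif_neg hh] at hz; simp at hz
      simp only [key, dif_pos hh, Option.some.injEq] at hz
      have := hh.choose_spec.1
      rw [hz, h0] at this
      simp [Finset.gcd_eq_zero_iff.2] at this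
    rw [← sum_fiberwise_of_maps_to (g := fun a => (key a).getD 0) hmaps]
    refine le_trans (sum_le_sum (g := fun z => 2 * ((1 : ℝ) / (nm z : ℝ) ^ 2)) fun z _ => ?_) ?_
    · have hval : ∀ a ∈ Q.filter (fun a => (key a).getD 0 = z),
          wz a ^ 2 = (1 : ℝ) / (nm z : ℝ) ^ 2 ∧ RatNormal L a z := by
        intro a ha
        obtain ⟨haQ, haz⟩ := mem_filter.1 ha
        obtain ⟨z', hz', -⟩ := (mem_filter.1 haQ).2
        rw [Option.mem_def] at hz'
        simp only [hz', Option.getD_some] at haz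
        subst haz
        refine ⟨by simp only [wz, hz']; rw [div_pow, one_pow], ?_⟩
        have hh : ∃ z, RatNormal L a z := by
          by_contra hh; simp only [key, dif_neg hh] at hz'; simp at hz'
        simp only [key, dif_pos hh, Option.some.injEq] at hz'
        exact hz' ▸ hh.choose_spec
      rw [sum_congr rfl fun a ha => (hval a ha).1, sum_const, nsmul_eq_mul]
      refine mul_le_mul_of_nonneg_right ?_ (by positivity)
      rcases (Q.filter fun a => (key a).getD 0 = z).eq_empty_or_nonempty with h | ⟨a, ha⟩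
      · rw [h]; simp
      · have hsub : (Q.filter fun a => (key a).getD 0 = z) ⊆ {a, -a} := by
          intro b hb
          obtain ⟨c, hc, hca⟩ := (hval a ha).2.2
          obtain ⟨c', hc', hcb⟩ := (hval b hb).2.2
          have hpar := normal_inj L hL (a := a) (a' := b) (c := c') (c' := c)
            (fun i => by rw [hca i, hcb i]; ring)
          have hlam : ∀ i, (b i : ℝ) = c' / c * a i := fun i => by
            field_simp
            linarith [hpar i]
          rcases primitive_parallel (hPprim a (mem_filter.1 (mem_filter.1 ha).1).1).1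
            (hPprim b (mem_filter.1 (mem_filter.1 hb).1).1).1 hlam with h | h <;> simp [h]
        exact_mod_cast (card_le_card hsub).trans card_le_two
    · rw [← mul_sum]
      refine mul_le_mul_of_nonneg_left ((sum_inv_nm n 2 T hn).trans (le_of_eq ?_)) (by norm_num)
      rw [show n + 1 - 2 = n - 1 by omega]
  have hmix : ∑ a₀ ∈ P, (1 : ℝ) / nm a₀ * wz a₀ ≤ 4 * (C * (T : ℝ) ^ (n - 1)) := by
    have hpt : ∀ a₀ ∈ P, (1 : ℝ) / nm a₀ * wz a₀ ≤
        1 / (nm a₀ : ℝ) ^ 2 + (if a₀ ∈ Q then wz a₀ ^ 2 else 0) + 1 / nm a₀ * (1 / T) := by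
      intro a₀ ha₀
      have h1 : (1 : ℝ) / (nm a₀ : ℝ) ^ 2 = (1 / (nm a₀ : ℝ)) ^ 2 := by rw [div_pow, one_pow]
      have hx : (0 : ℝ) ≤ 1 / nm a₀ := by positivity
      have hy : 0 ≤ (1 / (nm a₀ : ℝ)) * (1 / T) := by positivity
      by_cases hq : a₀ ∈ Q
      · rw [if_pos hq, h1]
        nlinarith [sq_nonneg ((1 : ℝ) / nm a₀ - wz a₀)]
      · rw [if_neg hq, h1]
        have hw : wz a₀ ≤ 1 / (T : ℝ) := by
          cases hk : key a₀ with
          | none => simp only [wz, hk]; positivity
          | some z =>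
            simp only [wz, hk]
            have hz : T < nm z := Nat.lt_of_not_le fun hle =>
              hq (mem_filter.2 ⟨ha₀, z, hk, hle⟩)
            exact one_div_le_one_div_of_le (by linarith) (by exact_mod_cast hz.le)
        nlinarith [mul_le_mul_of_nonneg_left hw hx]
    refine (sum_le_sum hpt).trans ?_
    rw [sum_add_distrib, sum_add_distrib, ← sum_filter, ← sum_mul,
      show P.filter (fun a => a ∈ Q) = Q by
        ext a; simp only [mem_filter, hQ]; tauto]
    have h3 : (∑ a₀ ∈ P, (1 : ℝ) / nm a₀) * (1 / T) ≤ C * (T : ℝ) ^ (n - 1) := by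
      rw [mul_one_div, div_le_iff₀ (by linarith)]
      refine s1.trans (le_of_eq ?_)
      rw [mul_assoc C, ← pow_succ, Nat.sub_add_cancel (show 1 ≤ n by omega)]
    linarith
  calc ∑ a ∈ B, ((perp L T a).card : ℝ)
      ≤ ∑ a₀ ∈ P, (T : ℝ) / nm a₀ * (3 ^ n * A ^ (n - 1) + A ^ n * wz a₀) :=
        step1.trans (sum_le_sum fun a₀ ha₀ =>
          mul_le_mul_of_nonneg_left (step2 a₀ ha₀) (by positivity))
    _ = T * 3 ^ n * A ^ (n - 1) * (∑ a₀ ∈ P, (1 : ℝ) / nm a₀) +
        T * A ^ n * (∑ a₀ ∈ P, (1 : ℝ) / nm a₀ * wz a₀) := by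
        rw [mul_sum, mul_sum, ← sum_add_distrib]
        exact sum_congr rfl fun a _ => by ring
    _ ≤ T * 3 ^ n * (3 ^ n * (T : ℝ) ^ (n - 1)) * (C * (T : ℝ) ^ n) +
        T * (3 ^ n * (T : ℝ) ^ n) * (4 * (C * (T : ℝ) ^ (n - 1))) := by
        have hAn : A ^ n ≤ 3 ^ n * (T : ℝ) ^ n := by rw [← mul_pow]; gcongr
        have hAn1 : A ^ (n - 1) ≤ 3 ^ n * (T : ℝ) ^ (n - 1) := by
          refine (pow_le_pow_left₀ hA0 hA3 _).trans ?_
          rw [mul_pow]
          gcongr
          · norm_num
          · omega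
        gcongr
        exact sum_nonneg fun a _ => mul_nonneg (by positivity) (by
          simp only [wz]; split <;> positivity)
    _ ≤ _ := by
        obtain ⟨m, rfl⟩ : ∃ m, n = m + 1 := ⟨n - 1, by omega⟩
        have e2 : (T : ℝ) ^ (2 * (m + 1)) = (T : ℝ) ^ (m + 1) * (T : ℝ) ^ (m + 1) := by
          rw [two_mul, pow_add]
        rw [Nat.add_sub_cancel, e2]
        have e : (T : ℝ) * (T : ℝ) ^ m = (T : ℝ) ^ (m + 1) := by rw [pow_succ]; ring
        have h3 : (1 : ℝ) ≤ 3 ^ (m + 1) := one_le_pow₀ (by norm_num)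
        have hZ : (0 : ℝ) ≤ C * (T : ℝ) ^ (m + 1) * (T : ℝ) ^ (m + 1) * 3 ^ (m + 1) := by
          positivity
        calc (T : ℝ) * 3 ^ (m + 1) * (3 ^ (m + 1) * (T : ℝ) ^ m) * (C * (T : ℝ) ^ (m + 1)) +
              T * (3 ^ (m + 1) * (T : ℝ) ^ (m + 1)) * (4 * (C * (T : ℝ) ^ m))
            = (3 ^ (m + 1) + 4) * (C * (T : ℝ) ^ (m + 1) * (T : ℝ) ^ (m + 1) * 3 ^ (m + 1)) := by
              rw [← e]; ring
          _ ≤ (6 * 3 ^ (m + 1)) * (C * (T : ℝ) ^ (m + 1) * (T : ℝ) ^ (m + 1) * 3 ^ (m + 1)) :=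
              mul_le_mul_of_nonneg_right (by linarith) hZ
          _ = _ := by ring

end Vale.Agent.P054
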