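import Vale.Agent.P054.Energy

/-!
Pinned distinct distances for dense subsets of affine images of grids.
-/

namespace Vale.Agent.P054

open Finset

theorem rv_sub {d : ℕ} (a b : Fin d → ℤ) : rv (a - b) = rv a - rv b := by
  funext i; simp [rv]

theorem rv_add {d : ℕ} (a b : Fin d → ℤ) : rv (a + b) = rv a + rv b := by
  funext i; simp [rv]

/-- Pairs of box points of equal length. -/
theorem card_equal_length (n : ℕ) (hn : 2 ≤ n) (L : (Fin (n + 1) → ℝ) →ₗ[ℝ]
    EuclideanSpace ℝ (Fin (n + 1))) (hL : Function.Injective L) {T : ℕ} (hT : 1 ≤ T) :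
    (((box (n + 1) T ×ˢ box (n + 1) T).filter
        fun p => ‖L (rv p.1)‖ = ‖L (rv p.2)‖).card : ℝ) ≤
      (3 ^ (n + 1) + 6 * (2 * (n + 1) * 3 ^ n) * (3 ^ n * 3 ^ n) * 2 ^ (2 * n)) *
        (T : ℝ) ^ (2 * n) := by
  classical
  set F := (box (n + 1) T ×ˢ box (n + 1) T).filter fun p => ‖L (rv p.1)‖ = ‖L (rv p.2)‖
  set D := (box (n + 1) (2 * T)).filter (fun a => a ≠ 0)
  have h1 : ((F.filter fun p => p.1 = p.2).card : ℝ) ≤ 3 ^ (n + 1) * (T : ℝ) ^ (2 * n) := by
    have hc : (F.filter fun p => p.1 = p.2).card ≤ (box (n + 1) T).card := by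
      refine card_le_card_of_injOn Prod.fst (fun p hp => ?_) fun p hp q hq h => ?_
      · exact (mem_product.1 (mem_filter.1 (mem_filter.1 hp).1).1).1
      · exact Prod.ext h ((mem_filter.1 hp).2.symm.trans (h.trans (mem_filter.1 hq).2))
    refine ((Nat.cast_le (α := ℝ)).2 hc).trans ?_
    rw [card_box]
    push_cast
    have hT' : (1 : ℝ) ≤ T := by exact_mod_cast hT
    calc (2 * (T : ℝ) + 1) ^ (n + 1) ≤ (3 * (T : ℝ)) ^ (n + 1) := by gcongr; linarith
      _ = 3 ^ (n + 1) * (T : ℝ) ^ (n + 1) := mul_pow _ _ _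
      _ ≤ _ := by gcongr; omega
  have h2 : ((F.filter fun p => p.1 ≠ p.2).card : ℝ) ≤
      ∑ a ∈ D, ((perp L (2 * T) a).card : ℝ) := by
    have hc : (F.filter fun p => p.1 ≠ p.2).card ≤
        (D.sigma fun a => perp L (2 * T) a).card := by
      refine card_le_card_of_injOn (fun p => ⟨p.1 - p.2, p.1 + p.2⟩) ?_ ?_
      · intro p hp
        obtain ⟨hpF, hne⟩ := mem_filter.1 hp
        obtain ⟨hpp, hlen⟩ := mem_filter.1 hpF
        obtain ⟨hx, hy⟩ := mem_product.1 hpp
        have hb : ∀ s : ℤ, |s| = 1 → p.1 + s • p.2 ∈ box (n + 1) (2 * T) := by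
          intro s hs
          refine mem_box.2 fun i => ?_
          rw [Pi.add_apply, Pi.smul_apply, smul_eq_mul]
          refine (abs_add_le _ _).trans ?_
          rw [abs_mul, hs, one_mul]
          have := mem_box.1 hx i
          have := mem_box.1 hy i
          push_cast
          linarith
        refine mem_sigma.2 ⟨mem_filter.2 ⟨?_, sub_ne_zero.2 hne⟩, mem_filter.2 ⟨?_, ?_⟩⟩
        · simpa [sub_eq_add_neg] using hb (-1) (by norm_num)
        · simpa using hb 1 (by norm_num)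
        · simp only [pair, rv_sub, rv_add, map_sub, map_add]
          rw [inner_sub_left, inner_add_right, inner_add_right,
            real_inner_comm (L (rv p.1)) (L (rv p.2)), real_inner_self_eq_norm_sq,
            real_inner_self_eq_norm_sq, hlen]
          ring
      · intro p _ q _ h
        simp only [Sigma.mk.inj_iff, heq_eq_eq] at h
        refine Prod.ext (funext fun i => ?_) (funext fun i => ?_) <;>
          · have e1 := congrFun h.1 i
            have e2 := congrFun h.2 i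
            simp only [Pi.sub_apply, Pi.add_apply] at e1 e2
            omega
    rw [card_sigma] at hc
    exact_mod_cast hc
  have h3 := sum_perp_le n hn L hL (show 1 ≤ 2 * T by omega)
  push_cast at h3
  rw [← card_filter_add_card_filter_not (fun p : (Fin (n + 1) → ℤ) × (Fin (n + 1) → ℤ) =>
    p.1 = p.2), Nat.cast_add, add_mul]
  refine add_le_add h1 (h2.trans (h3.trans (le_of_eq ?_)))
  rw [mul_pow]
  ring

/-- Dense subsets of affine images of the grid obey the conjectured bound at every point. -/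
theorem pinned_lattice (d : ℕ) (hd : 3 ≤ d) (ε : ℝ) (hε : 0 < ε) :
    ∃ c : ℝ, 0 < c ∧ ∀ (T : ℕ) (L : (Fin d → ℝ) →ₗ[ℝ] EuclideanSpace ℝ (Fin d))
      (v : EuclideanSpace ℝ (Fin d)) (P : Finset (EuclideanSpace ℝ (Fin d))),
      1 ≤ T → Function.Injective L →
      (∀ q ∈ P, ∃ x : Fin d → ℕ, (∀ i, x i ≤ T) ∧ q = v + L (fun i => (x i : ℝ))) →
      2 ≤ P.card → ε * (T : ℝ) ^ d ≤ (P.card : ℝ) →
      ∀ p ∈ P, c * (P.card : ℝ) ^ ((2 : ℝ) / d) ≤
        (((P.erase p).image (dist p)).card : ℝ) := by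
  classical
  obtain ⟨n, rfl⟩ : ∃ n, d = n + 1 := ⟨d - 1, by omega⟩
  set E₀ : ℝ := 3 ^ (n + 1) + 6 * (2 * (n + 1) * 3 ^ n) * (3 ^ n * 3 ^ n) * 2 ^ (2 * n) with hE₀
  have hE0 : 0 < E₀ := by rw [hE₀]; positivity
  refine ⟨ε ^ 2 / (36 * E₀), by positivity, fun T L v P hT hL hP h2 hden p hp => ?_⟩
  set N : ℝ := (P.card : ℝ) with hN
  choose g hg hgq using hP
  set x : EuclideanSpace ℝ (Fin (n + 1)) → (Fin (n + 1) → ℤ) := fun q =>
    if hq : q ∈ P then fun i => (g q hq i : ℤ) - g p hp i else 0 with hx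
  have hxq : ∀ q ∈ P, x q ∈ box (n + 1) T ∧ q - p = L (rv (x q)) := by
    intro q hq
    refine ⟨mem_box.2 fun i => ?_, ?_⟩
    · simp only [hx, dif_pos hq]
      have := hg q hq i
      have := hg p hp i
      rw [abs_le]; constructor <;> omega
    · have e : rv (x q) = (fun i => (g q hq i : ℝ)) - fun i => (g p hp i : ℝ) := by
        funext i
        simp [rv, hx, dif_pos hq]
      rw [e, map_sub]
      conv_lhs => rw [hgq q hq, hgq p hp]
      abel
  set Q := P.erase p
  set K := Q.image (dist p) with hK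
  have hdist : ∀ q ∈ Q, dist p q = ‖L (rv (x q))‖ := fun q hq => by
    rw [dist_comm, dist_eq_norm, (hxq q (mem_of_mem_erase hq)).2]
  have hpairs : ∑ k ∈ K, ((Q.filter fun q => dist p q = k).card : ℝ) ^ 2 ≤
      E₀ * (T : ℝ) ^ (2 * n) := by
    refine le_trans ?_ (card_equal_length n (by omega) L hL hT)
    have hc : ∑ k ∈ K, (Q.filter fun q => dist p q = k).card ^ 2 ≤
        ((box (n + 1) T ×ˢ box (n + 1) T).filter
          fun z => ‖L (rv z.1)‖ = ‖L (rv z.2)‖).card := by
      rw [show ∑ k ∈ K, (Q.filter fun q => dist p q = k).card ^ 2 =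
        (K.sigma fun k => (Q.filter fun q => dist p q = k) ×ˢ
          (Q.filter fun q => dist p q = k)).card by
          rw [card_sigma]
          exact sum_congr rfl fun k _ => by rw [card_product, sq]]
      refine card_le_card_of_injOn (fun w => (x w.2.1, x w.2.2)) ?_ ?_
      · intro w hw
        obtain ⟨-, hw⟩ := mem_sigma.1 hw
        obtain ⟨ha, hb⟩ := mem_product.1 hw
        obtain ⟨ha, ha'⟩ := mem_filter.1 ha
        obtain ⟨hb, hb'⟩ := mem_filter.1 hb
        refine mem_filter.2 ⟨mem_product.2 ⟨(hxq _ (mem_of_mem_erase ha)).1,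
          (hxq _ (mem_of_mem_erase hb)).1⟩, ?_⟩
        rw [← hdist _ ha, ← hdist _ hb, ha', hb']
      · intro w hw w' hw' h
        obtain ⟨-, hw⟩ := mem_sigma.1 hw
        obtain ⟨-, hw'⟩ := mem_sigma.1 hw'
        obtain ⟨ha, hb⟩ := mem_product.1 hw
        obtain ⟨hc, hd⟩ := mem_product.1 hw'
        obtain ⟨ha, ha'⟩ := mem_filter.1 ha
        obtain ⟨hc, hc'⟩ := mem_filter.1 hc
        have key : ∀ a ∈ Q, ∀ b ∈ Q, x a = x b → a = b := fun a ha b hb hab => by
          have h1 := (hxq a (mem_of_mem_erase ha)).2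
          rw [hab, ← (hxq b (mem_of_mem_erase hb)).2] at h1
          exact sub_left_injective h1
        simp only [Prod.mk.injEq] at h
        have e1 := key _ ha _ hc h.1
        have e2 := key _ (mem_filter.1 hb).1 _ (mem_filter.1 hd).1 h.2
        obtain ⟨k, a, b⟩ := w
        obtain ⟨k', a', b'⟩ := w'
        simp only at e1 e2 ha' hc'
        subst e1 e2
        rw [← ha', ← hc']
    exact_mod_cast hc
  have hCS : ((Q.card : ℝ)) ^ 2 ≤ (K.card : ℝ) * (E₀ * (T : ℝ) ^ (2 * n)) := by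
    rw [show (Q.card : ℝ) = ∑ k ∈ K, ((Q.filter fun q => dist p q = k).card : ℝ) by
      exact_mod_cast card_eq_sum_card_image (dist p) Q]
    exact sq_sum_le_card_mul_sum_sq.trans
      (mul_le_mul_of_nonneg_left hpairs (Nat.cast_nonneg _))
  have hQ : N / 2 ≤ (Q.card : ℝ) := by
    rw [card_erase_of_mem hp, Nat.cast_sub (by omega)]
    have : (2 : ℝ) ≤ N := by rw [hN]; exact_mod_cast h2
    push_cast
    linarith
  have hT0 : (0 : ℝ) < T := by exact_mod_cast hT
  have hgrid : N ≤ (3 * (T : ℝ)) ^ (n + 1) := by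
    have hc : P.card ≤ (box (n + 1) T).card := by
      refine card_le_card_of_injOn x (fun q hq => (hxq q hq).1) fun a ha b hb hab => ?_
      have h1 := (hxq a ha).2
      rw [hab, ← (hxq b hb).2] at h1
      exact sub_left_injective h1
    refine ((Nat.cast_le (α := ℝ)).2 hc).trans ?_
    rw [card_box]
    push_cast
    gcongr
    have : (1 : ℝ) ≤ T := by exact_mod_cast hT
    linarith
  have hpow : N ^ ((2 : ℝ) / (n + 1 : ℕ)) ≤ 9 * (T : ℝ) ^ 2 := by
    refine (Real.rpow_le_rpow (Nat.cast_nonneg _) hgrid (by positivity)).trans (le_of_eq ?_)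
    rw [← Real.rpow_natCast (3 * (T : ℝ)) (n + 1), ← Real.rpow_mul (by positivity),
      mul_div_cancel₀ _ (by positivity : ((n + 1 : ℕ) : ℝ) ≠ 0),
      show (2 : ℝ) = ((2 : ℕ) : ℝ) by norm_num, Real.rpow_natCast]
    ring
  have hlow : ε ^ 2 * ((T : ℝ) ^ 2 * (T : ℝ) ^ (2 * n)) ≤ N ^ 2 := by
    refine le_trans (le_of_eq ?_) (pow_le_pow_left₀ (by positivity) hden 2)
    rw [mul_pow, ← pow_mul, ← pow_add]
    ring
  calc ε ^ 2 / (36 * E₀) * N ^ ((2 : ℝ) / (n + 1 : ℕ))
      ≤ ε ^ 2 / (36 * E₀) * (9 * (T : ℝ) ^ 2) :=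
        mul_le_mul_of_nonneg_left hpow (by positivity)
    _ ≤ (K.card : ℝ) := by
        rw [div_mul_eq_mul_div, div_le_iff₀ (by positivity)]
        refine le_of_mul_le_mul_right ?_ (pow_pos hT0 (2 * n))
        nlinarith [pow_le_pow_left₀ (div_nonneg (Nat.cast_nonneg _) zero_le_two : (0 : ℝ) ≤ N / 2) hQ 2]

end Vale.Agent.P054
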